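import Vale.Agent.P338.R3.H101.Fin

/-!
A deterministic multitape Turing machine that multiplies in time `o(n log n)`.
-/

open Vale.Agent.P338.R2.H898

namespace Vale.Agent.Results.P338.Disproof

theorem result :
    (∃ A : MTM, Multiplies A ∧ ∀ ε : ℝ, 0 < ε → ∃ N : ℕ, ∀ n : ℕ, N ≤ n →
      (mulTime A n : ℝ) < ε * (n * Real.log n)) ∧
    ¬ ∀ A : MTM, Multiplies A → ∃ c : ℝ, 0 < c ∧ ∃ N : ℕ, 2 ≤ N ∧ ∀ n : ℕ, N ≤ n →
      c * (n * Real.log n) ≤ mulTime A n := by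
  obtain ⟨A, hA, h⟩ := Vale.Agent.P338.R3.H101.exists_fast
  exact ⟨⟨A, hA, h⟩, Vale.Agent.P338.R3.H772.not_q1 hA h.often⟩

end Vale.Agent.Results.P338.Disproof
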