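import Mathlib
import Vale.Agent.P338.R2.H101.OneTape

/-!
P338: unconditional lower bounds for machines with one long work tape.
-/

namespace Vale.Agent.Results.P338.OneLongTape

open Vale.Agent.P338.R2.H898 Vale.Agent.P338.R2.H101

/-- For every machine `A` that multiplies and has a write-only output tape, apart from the input
tape: there are `c > 0` and `N` such that `T_A(n) ≥ c n^(3/2) / (log n √(σ + log n))` for all
`n ≥ N` and all `σ` such that on inputs of size `n` the input tape is not changed, no output cell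
is written twice, and all other tapes except one are short (fewer than `σ` cells) or blank. In
particular `T_A(n) ≥ c n log n` if `σ ≤ n / (log n)^4`, and `T_A(n) ≥ n^(1 + ε/3)` if
`σ ≤ n^(1 - ε)`. -/
theorem result (A : MTM) (hA : Multiplies A) (hio : A.inp ≠ A.out) (hwo : WriteOnly A) :
    (∃ c : ℝ, 0 < c ∧ ∃ N : ℕ, ∀ n : ℕ, N ≤ n → ∀ σ : ℕ, OneLong A σ n →
      c * (n : ℝ) ^ (3 / 2 : ℝ) / (Real.log n * Real.sqrt (σ + Real.log n)) ≤ mulTime A n) ∧
    (∃ c : ℝ, 0 < c ∧ ∃ N : ℕ, ∀ n : ℕ, N ≤ n → ∀ σ : ℕ, OneLong A σ n →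
      (σ : ℝ) ≤ n / Real.log n ^ 4 → c * (n * Real.log n) ≤ mulTime A n) ∧
    (∀ ε : ℝ, 0 < ε → ε ≤ 1 → ∃ N : ℕ, ∀ n : ℕ, N ≤ n → ∀ σ : ℕ, OneLong A σ n →
      (σ : ℝ) ≤ (n : ℝ) ^ (1 - ε) → (n : ℝ) ^ (1 + ε / 3) ≤ mulTime A n) :=
  one_long_tape A hA hio hwo

end Vale.Agent.Results.P338.OneLongTape
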