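import Vale.Agent.P338.R2.H101.Final
import Vale.Agent.P338.R2.H101.Bp.Exact
import Vale.Agent.P338.R2.H101.Bp.MildLog

/-!
Transposition of bit matrices by a bounded number of large integer multiplications, on
deterministic multitape Turing machines.
-/

open Vale.Agent.P338.R2.H898

namespace Vale.Agent.Results.P338.TransposeIterated

theorem result :
    (∀ A : MTM, Multiplies A →
      ExactIneq 18432 A ∧ ∀ g : ℝ → ℝ, Mild g → TransHardBy g → MulHardBy g A) ∧
    Mild Real.log ∧
    (∀ A A' : MTM, Multiplies A → Multiplies A' →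
      FastIneq 18432 A A' ∧ (∀ k : ℕ, IterIneq 18432 A A' k) ∧ StarIneq 18432 A A' ∧
      ∀ g : ℝ → ℝ, Slow g → TransHardBy g → MulHardOr g A A') ∧
    (∀ A : MTM, Multiplies A → ∀ g : ℝ → ℝ, Slow g →
      (MulFastBy g A → TransFastBy g) ∧ (Regular A → TransHardBy g → MulHardBy g A)) ∧
    ∀ k : ℕ, Slow (ilog (k + 1)) :=
  ⟨fun _ hA => ⟨Vale.Agent.P338.R2.H101.Bp.exactIneq hA,
      fun _ hg h => Vale.Agent.P338.R2.H101.Bp.mulHardBy_of_exact (by norm_num) hg
        (Vale.Agent.P338.R2.H101.Bp.exactIneq hA) h⟩,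
    Vale.Agent.P338.R2.H101.Bp.mild_log,
    fun _ _ hA hA' => ⟨Vale.Agent.P338.R2.H101.fastIneq hA hA',
      fun k => Vale.Agent.P338.R2.H101.iterIneq hA hA' k,
      Vale.Agent.P338.R2.H101.starIneq hA hA',
      fun _ hg h => Vale.Agent.P338.R2.H101.mulHardOr_of_transHardBy (by norm_num) hA hg
        (fun k => Vale.Agent.P338.R2.H101.iterIneq hA hA' k) h⟩,
    fun _ hA _ hg => ⟨fun hF => Vale.Agent.P338.R2.H101.transFastBy_of_mulFastBy (by norm_num) hg
        (fun k => Vale.Agent.P338.R2.H101.iterIneq hA hA k) hF,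
      fun hR h => Vale.Agent.P338.R2.H101.mulHardBy_of_regular hg hR
        (Vale.Agent.P338.R2.H101.mulHardOr_of_transHardBy (by norm_num) hA hg
          (fun k => Vale.Agent.P338.R2.H101.iterIneq hA hA k) h)⟩,
    fun k => Vale.Agent.P338.R2.H101.slow_ilog k⟩

end Vale.Agent.Results.P338.TransposeIterated
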