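import Vale.Agent.P338.R2.H784.Reduction
import Vale.Agent.P338.R2.H778.WeakMono
import Vale.Agent.P338.R2.H898.Clean

/-!
Integer multiplication is at least as hard as the transposition of bit matrices, on
deterministic multitape Turing machines.
-/

open Filter Asymptotics
open Vale.Agent.P338.R2.H898

namespace Vale.Agent.Results.P338.TransposeReduction

theorem result :
    (∀ A : MTM, Multiplies A → Ineq 18432 A ∧ PlainIneq 18432 A) ∧
    (RectHard → ∀ A : MTM, Multiplies A → MulHard A) ∧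
    (SquareHard ∨ PlainHard → ∀ A : MTM, Multiplies A →
      (∃ c : ℝ, 0 < c ∧ ∃ N : ℕ, 2 ≤ N ∧ ∀ n : ℕ, N ≤ n → ∃ k : ℕ, k ≤ n ∧ n ≤ 32 * k ∧
        c * (n * Real.log n) ≤ mulTime A k) ∧
      ((∃ K : ℝ, ∀ k n : ℕ, k ≤ n → n ≤ 32 * k → (mulTime A k : ℝ) ≤ K * mulTime A n) →
        MulHard A)) ∧
    (∀ A : MTM, Multiplies A →
      (fun n : ℕ => (mulTime A n : ℝ)) =o[atTop] (fun n : ℕ => (n : ℝ) * Real.log n) →
      (∃ B : MTM, Transposes B ∧
        (fun m : ℕ => (transTime B m m : ℝ)) =o[atTop] fun m : ℕ => (m : ℝ) ^ 2 * Real.log m) ∧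
      (∃ B : MTM, TransposesPlain B ∧
        (fun m : ℕ => (plainTime B m : ℝ)) =o[atTop] fun m : ℕ => (m : ℝ) ^ 2 * Real.log m)) := by
  have hred : ∀ A : MTM, Multiplies A → IneqL 18432 A :=
    fun A hA => Vale.Agent.P338.R2.H784.reduction hA
  have hsq : SquareHard ∨ PlainHard → SquareHard :=
    fun h => h.elim id Vale.Agent.P338.R2.H525.squareHard_of_plainHard
  refine ⟨fun A hA => ⟨ineq_of_ineqL hA (hred A hA),
      plainIneq_of_ineq hA (ineq_of_ineqL hA (hred A hA))⟩,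
    fun h A hA => mulHard_of_rectHard (by norm_num) (hred A hA) h,
    fun h A hA => ⟨Vale.Agent.P338.R2.H778.sizes_of_squareHard (by norm_num) (hred A hA) (hsq h),
      fun ⟨K, hK⟩ => Vale.Agent.P338.R2.H778.mulHard_of_squareHard_weak (by norm_num)
        (hred A hA) (hsq h) K hK⟩, fun A hA h => ?_⟩
  obtain ⟨B, hB, hBo⟩ := trans_littleO_of_mul_littleO (by norm_num) (hred A hA) h
  exact ⟨⟨B, hB, hBo⟩, Vale.Agent.P338.R2.H525.plain_littleO hB.squares hBo⟩

end Vale.Agent.Results.P338.TransposeReduction
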